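import Vale.Agent.N331.Main

/-!
# P331: correlated laws, order-oblivious secretary rule, intersections of matroids
-/

open MeasureTheory Vale.Agent.P331 Vale.Agent.N331
open scoped ENNReal NNReal

theorem Vale.Agent.Results.P331.A0Oblivious.result :
    ∃ c : ℝ, 0 < c ∧ c = Real.exp (-41000000) ∧ ∀ (E : Type) [Fintype E],
      (∀ M : Matroid E, M.E = Set.univ → ∃ R : OnlineRule M,
        Robust R (opt M) c ∧ Oblivious R (2 * c) ∧
        ∀ w : E → ℝ≥0, ∃ B : Finset E, M.Indep B ∧ ∑ b ∈ B, (w b : ℝ≥0∞) = opt M w ∧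
          ∀ b ∈ B, ENNReal.ofReal c ≤
            R.law {r | ∀ o : Order E, b ∈ accepted (R.accept r w) (history w o)}) ∧
      (∀ D : E → Measure ℝ≥0, (∀ e, IsProbabilityMeasure (D e)) →
        Hybrid ((Measure.pi D).prod (Measure.pi D))) ∧
      ∀ (k : ℕ) (N : Fin k → Matroid E), 0 < k → (∀ i, (N i).E = Set.univ) →
        ∃ R : OnlineRule (Matroid.freeOn (Set.univ : Set E)),
          (∀ r s h, (h.map Prod.fst).Nodup → ∀ i, (N i).Indep (accepted (R.accept r s) h)) ∧
          Robust R (optAll N) (c / (4 * k ^ 6)) ∧ Oblivious R (c / k ^ 5) :=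
  ⟨_, Real.exp_pos _, rfl, fun _ _ => ⟨fun M h => (one M h).imp fun _ k => k.2, hybrid, many⟩⟩
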